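import Vale.Agent.P207Z.Fin.AltPf
import Vale.Agent.P207Z.Abs

/-!
# P207: Katok's entropy rigidity conjecture

On a closed connected smooth manifold of dimension `n ≥ 2` let `g` be any Riemannian metric of
strictly negative sectional curvature. Then `h_L ≤ h_top`, with equality if and only if `g` is
locally symmetric.
-/

open scoped Manifold ContDiff ENNReal

noncomputable section

namespace Vale.Agent.Results.P207.AKatokFull

open Vale.Agent.P255 (RMetric)
open Vale.Agent.P207F

theorem result (n : ℕ) (hn : 2 ≤ n) (M : Type) [TopologicalSpace M] [CompactSpace M] [T2Space M]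
    [ConnectedSpace M] [ChartedSpace (EV n) M] [IsManifold 𝓘(ℝ, EV n) ∞ M] [MeasurableSpace M]
    [BorelSpace M] :
    (∀ g : RMetric (EV n) M, WellDefined (stdB n) g) ∧
    ∀ g : RMetric (EV n) M, NegCurvature g →
      hLiou (stdB n) g ≤ hTop g ∧ (hLiou (stdB n) g = hTop g ↔ LocSymmetric g) :=
  Vale.Agent.P207Z.Fin.final_of_alt
    (@Vale.Agent.P207Z.Fin.altStmt_of fun P Fl Tm hL => Vale.Agent.P207Z.isS_Es P Fl Tm hL) n hn M

end Vale.Agent.Results.P207.AKatokFull
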